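import Vale.Agent.P004E.H503.Curve
import Vale.Agent.P004E.H3.Win2
import Vale.Agent.P004E.H3.Mr
import Vale.Agent.P004E.H156.Pf
import Vale.Agent.P004E.H147.Swap
import Vale.Agent.P004E.H628.F3
import Vale.Agent.P004E.H628.N3
import Vale.Agent.P004E.H357.M9
import Vale.Agent.P004E.H185.Fin
import Vale.Agent.P004E.H394.S7
import Vale.Agent.P004E.H187.Dual9

/-!
# P004E: all modules together
-/

namespace P004E
namespace Fin

open P004G

/-- module S5 -/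
theorem dualAll [Crv] (hTF : StTF) (hN0 : StN0) (hN1 : StN1) (hH : StHlam) : StDual :=
  pfDual pfPoiW (pfAd0 hN0) pfAdAG pfAdSep KT.pfAP (KT.pfST hN1 hH) (KT.pfTq hH) hN0
    (pfAG (pfSep2 pfCoef P004.pfKer) (pfConv pfCoef P004.pfDiv) (pfStFrac pfCoef) P004.pfDiv)
    (pfTailAG P004.pfKer) (full (pfZ1 hTF))

/-- the modules F, W, M, S -/
theorem modules [Crv] (hTF : StTF) (hM : StMert) (hN0 : StN0) (hN1 : StN1) (hH : StHlam) :
    StFirst ∧ StWin ∧ StMr ∧ StBlk ∧ StStrip := by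
  have hW : StWin := P004G.E3W.pfWin pfCoef P004.pfDiv (tw2 (full (pfZ1 hTF))) hM mert1
  exact ⟨F.pfFirst_of (H156.pfMainVal hM)
      (fun N D hN h2 σ hσ ε κ hε hε1 hκ => H147.swap N D hN h2 hσ hε hε1 hκ) hW, hW,
    P004G.E3W.pfMr P004.pfDiv pfTw0, pfBlk hM,
    pfStrip_dual hTF hN1 hH (dualAll hTF hN0 hN1 hH)⟩

/-- **Analytic rank one** for a positive proportion of the twists of `y² = x³ - A x`. -/
theorem rank_one {A : ℤ} (hA : A ≠ 0) : ∃ c : ℝ, 0 < c ∧ ∃ X₀ : ℕ, ∀ X : ℕ, X₀ ≤ X →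
      c * X ≤ (((P004.Fam X).filter (fun D => aRk (-A) 0 D = 1)).card : ℝ) := by
  obtain ⟨h1, h2, h3, h4, h5⟩ := @modules (P004.QN.crvQ hA) (P004.QN.tfQ hA) (pfMert hA)
    (pfN0Q hA) (P004.QN.n1Q hA) (P004.QN.hlamQ hA)
  exact @curve (P004.QN.crvQ hA) (-A) 0 (P004.QN.clsQ hA) h1 h2 h3 h4 h5

end Fin
end P004E
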